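import Vale.Agent.P011.D4Z.H493.Ev
import Vale.Agent.P011.D4X.H691.Top

/-!
Block D4Z: the closures of the families of matrices; the relations; the end of the density argument.
-/

open Filter Topology NumberField

set_option linter.unusedSectionVars false

namespace Vale.Agent.P011.D4Z

open Vale.Agent.P011.MPQ Vale.Agent.P011.D4 Vale.Agent.P011.D4.Oct Vale.Agent.P011.D4X
open Vale.Agent.P011.E6
open scoped ComplexConjugate

section cont

variable {X : Type} [TopologicalSpace X] {a b c : ℂˣ} {f g : X → Oct a b c}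

/-- The eight coordinates are continuous. -/
def CO (f : X → Oct a b c) : Prop := ∀ v0, TO {RingHom.id ℂ} (𝓝 v0) f (f v0)

theorem CO.co (hf : CO f) (i : Fin 8) : Continuous fun v => co8 (f v) i := by
  rw [continuous_iff_continuousAt]
  intro v0
  obtain ⟨⟨h1, h2, h3, h4⟩, h5, h6, h7, h8⟩ := hf v0
  fin_cases i
  · exact h1 _ rfl
  · exact h2 _ rfl
  · exact h3 _ rfl
  · exact h4 _ rfl
  · exact h5 _ rfl
  · exact h6 _ rfl
  · exact h7 _ rfl
  · exact h8 _ rfl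

theorem CO_of (h : ∀ i, Continuous fun v => co8 (f v) i) : CO f := by
  intro v0
  have h1 : ∀ i, ∀ w ∈ ({RingHom.id ℂ} : Set (ℂ →+* ℂ)),
      Tendsto (fun v => w (co8 (f v) i)) (𝓝 v0) (𝓝 (w (co8 (f v0) i))) := by
    rintro i w rfl
    exact (h i).continuousAt
  exact ⟨⟨h1 0, h1 1, h1 2, h1 3⟩, h1 4, h1 5, h1 6, h1 7⟩

theorem CO.const (x : Oct a b c) : CO (fun _ : X => x) := fun _ => TO.const _ _ x

theorem CO.mul (hf : CO f) (hg : CO g) : CO fun v => f v * g v := fun v0 => (hf v0).mul (hg v0)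

theorem CO.star (hf : CO f) : CO fun v => star (f v) := fun v0 => (hf v0).star

theorem CO.bil (hf : CO f) (hg : CO g) : Continuous fun v => Oct.bil (f v) (g v) := by
  rw [continuous_iff_continuousAt]
  exact fun v0 => (hf v0).bil (hg v0) _ rfl

theorem CO.act {M : X → Matrix (Fin 8) (Fin 8) ℂ} (hM : ∀ i j, Continuous fun v => M v i j)
    (hf : CO f) : CO fun v => act (M v) (f v) := by
  refine CO_of fun i => ?_
  have h1 : (fun v => co8 (Vale.Agent.P011.D4Z.act (M v) (f v)) i) =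
      fun v => ∑ j, M v i j * co8 (f v) j := by
    funext v
    rw [act_apply, co8_of8]
    rfl
  rw [h1]
  exact continuous_finsetSum _ fun j _ => (hM i j).mul (hf.co j)

theorem CO.isClosed (hf : CO f) (hg : CO g) : IsClosed {v | f v = g v} := by
  have h1 : {v | f v = g v} = ⋂ i, {v | co8 (f v) i = co8 (g v) i} := by
    ext v
    rw [Set.mem_iInter]
    exact ⟨fun h i => congrArg (fun x => co8 x i) h, fun h => co8_inj (funext h)⟩
  rw [h1]
  exact isClosed_iInter fun i => isClosed_eq (hf.co i) (hg.co i)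

end cont

section contJ

variable {X : Type} [TopologicalSpace X] {k L E : Type} [Field k] [Field L] [Field E]
  [Algebra k E] [Algebra L E] {ρ : E ≃ₐ[k] E} {α : E} {a b c : kˣ} {q : Lˣ} [Algebra k ℂ]
  {W : E →ₐ[k] ℂ}

theorem CO.cj {f : X → OctL ℂ a b c} (hf : CO f) : CO fun v => cj (f v) := by
  refine CO_of fun i => ?_
  simp only [co8_cj]
  exact Complex.continuous_conj.comp (hf.co i)

theorem CO.JW {f : X → OctL ℂ a b c} (hf : CO f) : CO fun v => JW W ρ α q (f v) := fun v0 =>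
  ⟨((TQ.const _ _ _).mul (hf.cj v0).1).mul (TQ.const _ _ _), (hf.cj v0).2.mul (TQ.const _ _ _)⟩

end contJ

section clos

variable {k E : Type} [Field k] [Field E] [Algebra k E] {a b c : kˣ}

theorem co8_lin (g : OctL E a b c →ₗ[E] OctL E a b c) (x : OctL E a b c) (i : Fin 8) :
    co8 (g x) i = ∑ j, co8 x j * co8 (g (of8 (Pi.single j 1))) i := by
  have h2 : co8 (g x) i = co8 (g (∑ j, co8 x j • (of8 (Pi.single j 1) : OctL E a b c))) i := by
    rw [← sum_e x]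
  rw [h2, map_sum]
  have h3 : ∀ s : Finset (Fin 8),
      co8 (∑ j ∈ s, g (co8 x j • (of8 (Pi.single j 1) : OctL E a b c))) i =
        ∑ j ∈ s, co8 x j * co8 (g (of8 (Pi.single j 1))) i := by
    intro s
    induction s using Finset.induction_on with
    | empty =>
      rw [Finset.sum_empty, Finset.sum_empty]
      fin_cases i <;> rfl
    | insert j s hj ih =>
      rw [Finset.sum_insert hj, Finset.sum_insert hj, co8_add, Pi.add_apply, ih, map_smul,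
        co8_smul, Pi.smul_apply, smul_eq_mul]
  exact h3 _

theorem matW_mul (w : E →+* ℂ) (z g : OctL E a b c ≃ₗ[E] OctL E a b c) :
    matW w (z * g : OctL E a b c ≃ₗ[E] OctL E a b c) = matW w z * matW w g := by
  ext i j
  rw [Matrix.mul_apply]
  change w (co8 ((z : OctL E a b c →ₗ[E] OctL E a b c) (g (of8 (Pi.single j 1)))) i) = _
  rw [co8_lin, map_sum]
  refine Finset.sum_congr rfl fun l _ => ?_
  rw [map_mul, mul_comm]
  rfl

variable {S : Set (E →+* ℂ)} {R : Subgroup (OctL E a b c ≃ₗ[E] OctL E a b c)}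
  {g : OctL E a b c ≃ₗ[E] OctL E a b c}

theorem mat_mul (z g : OctL E a b c ≃ₗ[E] OctL E a b c) :
    mat S (z * g : OctL E a b c ≃ₗ[E] OctL E a b c) = mat S z * mat S g := by
  funext W
  exact matW_mul W.1 z g

theorem mat_mem_cl {z : OctL E a b c ≃ₗ[E] OctL E a b c} (hz : z ∈ R) : mat S z ∈ cl S R :=
  subset_closure ⟨z, hz, rfl⟩

theorem mat_mem_clg {z : OctL E a b c ≃ₗ[E] OctL E a b c} (hz : z ∈ R) :
    mat S (z * g : OctL E a b c ≃ₗ[E] OctL E a b c) ∈ clg S R g :=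
  subset_closure ⟨z, hz, rfl⟩

theorem self_mem_clg : mat S g ∈ clg S R g := by
  have h1 := mat_mem_clg (S := S) (g := g) R.one_mem
  rwa [one_mul] at h1

theorem mat_one : mat S (1 : OctL E a b c ≃ₗ[E] OctL E a b c) = 1 := by
  funext W
  ext i j
  change W.1 (co8 (of8 (Pi.single j 1) : OctL E a b c) i) = (1 : Matrix (Fin 8) (Fin 8) ℂ) i j
  rw [co8_of8]
  by_cases h : i = j
  · subst h
    rw [Pi.single_eq_same, map_one, Matrix.one_apply_eq]
  · rw [Pi.single_eq_of_ne h, map_zero, Matrix.one_apply_ne h]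

theorem one_mem_cl : (1 : S → Matrix (Fin 8) (Fin 8) ℂ) ∈ cl S R := by
  rw [← mat_one (a := a) (b := b) (c := c)]
  exact mat_mem_cl R.one_mem

theorem mul_mem_clg {X Y : S → Matrix (Fin 8) (Fin 8) ℂ} (hX : X ∈ cl S R)
    (hY : Y ∈ clg S R g) : X * Y ∈ clg S R g := by
  refine map_mem_closure₂ continuous_mul hX hY ?_
  rintro _ ⟨z, hz, rfl⟩ _ ⟨z', hz', rfl⟩
  rw [← mat_mul, ← mul_assoc]
  exact ⟨z * z', R.mul_mem hz hz', rfl⟩

theorem mul_mem_cl {X Y : S → Matrix (Fin 8) (Fin 8) ℂ} (hX : X ∈ cl S R)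
    (hY : Y ∈ cl S R) : X * Y ∈ cl S R := by
  refine map_mem_closure₂ continuous_mul hX hY ?_
  rintro _ ⟨z, hz, rfl⟩ _ ⟨z', hz', rfl⟩
  rw [← mat_mul]
  exact ⟨z * z', R.mul_mem hz hz', rfl⟩

theorem clg_induction {P : (S → Matrix (Fin 8) (Fin 8) ℂ) → Prop} (hP : IsClosed {X | P X})
    (h : ∀ z ∈ R, P (mat S (z * g : OctL E a b c ≃ₗ[E] OctL E a b c)))
    {Y : S → Matrix (Fin 8) (Fin 8) ℂ} (hY : Y ∈ clg S R g) : P Y := by
  refine closure_minimal (t := {X | P X}) ?_ hP hY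
  rintro _ ⟨z, hz, rfl⟩
  exact h z hz

theorem cl_induction {P : (S → Matrix (Fin 8) (Fin 8) ℂ) → Prop} (hP : IsClosed {X | P X})
    (h : ∀ z ∈ R, P (mat S z))
    {Y : S → Matrix (Fin 8) (Fin 8) ℂ} (hY : Y ∈ cl S R) : P Y := by
  refine closure_minimal (t := {X | P X}) ?_ hP hY
  rintro _ ⟨z, hz, rfl⟩
  exact h z hz

/-- The end of the density argument. -/
theorem mem_of_one_of (hS : S.Finite) {G : Subgroup (OctL E a b c ≃ₗ[E] OctL E a b c)}
    (hRG : R ≤ G) (ho : ∃ ε : ℝ, 0 < ε ∧ ∀ g : OctL E a b c ≃ₗ[E] OctL E a b c, g ∈ G →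
      (∀ w ∈ S, ∀ x, on w (g x - x) ≤ ε * on w x) → g ∈ R) (hg : g ∈ G)
    (h1 : (1 : S → Matrix (Fin 8) (Fin 8) ℂ) ∈ clg S R g) : g ∈ R := by
  obtain ⟨ε, hε, ho⟩ := ho
  have := hS.to_subtype
  have h2 : ∀ᶠ X : S → Matrix (Fin 8) (Fin 8) ℂ in 𝓝 1, ∀ W i j,
      ‖X W i j - (1 : Matrix (Fin 8) (Fin 8) ℂ) i j‖ < ε / 8 := by
    refine eventually_all.2 fun W => eventually_all.2 fun i => eventually_all.2 fun j => ?_
    have h3 : Continuous fun X : S → Matrix (Fin 8) (Fin 8) ℂ =>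
        ‖X W i j - (1 : Matrix (Fin 8) (Fin 8) ℂ) i j‖ :=
      ((((continuous_apply W).matrix_elem i j)).sub continuous_const).norm
    have h4 := h3.tendsto 1
    rw [Pi.one_apply, sub_self, _root_.norm_zero] at h4
    exact h4.eventually (gt_mem_nhds (by positivity))
  obtain ⟨X, ⟨z, hz, rfl⟩, hX⟩ := ((mem_closure_iff_frequently.1 h1).and_eventually h2).exists
  refine (R.mul_mem_cancel_left hz).1 (ho (z * g) (G.mul_mem (hRG hz) hg) fun w hw x => ?_)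
  have h5 : ∀ i, ‖w (co8 ((z * g) x - x) i)‖ ≤ ε / 8 * on w x := by
    intro i
    have h6 : w (co8 ((z * g) x - x) i) = ∑ j, w (co8 x j) *
        (mat S (z * g : OctL E a b c ≃ₗ[E] OctL E a b c) ⟨w, hw⟩ i j -
          (1 : Matrix (Fin 8) (Fin 8) ℂ) i j) := by
      have h7 : co8 ((z * g) x) i = ∑ j, co8 x j * co8 ((z * g) (of8 (Pi.single j 1))) i :=
        co8_lin ((z * g : OctL E a b c ≃ₗ[E] OctL E a b c) : OctL E a b c →ₗ[E] OctL E a b c) x i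
      rw [co8_sub, map_sub, h7, map_sum]
      simp only [mul_sub, Finset.sum_sub_distrib, Matrix.one_apply, mul_ite, mul_one, mul_zero,
        Finset.sum_ite_eq, Finset.mem_univ, if_true, map_mul]
      rfl
    rw [h6]
    refine (norm_sum_le _ _).trans ?_
    unfold on
    rw [Finset.mul_sum]
    refine Finset.sum_le_sum fun j _ => ?_
    rw [_root_.norm_mul, mul_comm]
    exact mul_le_mul_of_nonneg_right (hX ⟨w, hw⟩ i j).le (norm_nonneg _)
  calc on w ((z * g) x - x) = ∑ i, ‖w (co8 ((z * g) x - x) i)‖ := rfl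
    _ ≤ ∑ _i : Fin 8, ε / 8 * on w x := Finset.sum_le_sum fun i _ => h5 i
    _ = ε * on w x := by
      rw [Finset.sum_const, Finset.card_univ, Fintype.card_fin, nsmul_eq_mul]
      push_cast
      ring

end clos

section relations

variable {k L E : Type} [Field k] [Field L] [Field E] [Algebra k L] [Algebra k E] [Algebra L E]
  [IsScalarTower k L E] {ρ σ : E ≃ₐ[k] E} {α : E} {a b c : kˣ} {q : Lˣ} [Algebra k ℂ]
  {W W' W'' : E →ₐ[k] ℂ} {S : Set (E →+* ℂ)} {R : Subgroup (OctL E a b c ≃ₗ[E] OctL E a b c)}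
  {g : OctL E a b c ≃ₗ[E] OctL E a b c} {Y : S → Matrix (Fin 8) (Fin 8) ℂ}

theorem cont_coord (V : S) (i j : Fin 8) :
    Continuous fun X : S → Matrix (Fin 8) (Fin 8) ℂ => X V i j :=
  (continuous_apply V).matrix_elem i j

theorem co_act {w : E →+* ℂ} (hw : w ∈ S) (x : OctL ℂ a b c) :
    CO fun X : S → Matrix (Fin 8) (Fin 8) ℂ => act (X ⟨w, hw⟩) x :=
  CO.act (M := fun X : S → Matrix (Fin 8) (Fin 8) ℂ => X ⟨w, hw⟩) (f := fun _ => x)
    (cont_coord _) (CO.const x)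

theorem clg_bil_of (hW : (W : E →+* ℂ) ∈ S)
    (hR : ∀ z ∈ R, ∀ x y, Oct.bil ((z * g) x) ((z * g) y) = Oct.bil x y)
    (hY : Y ∈ clg S R g) (x y : OctL ℂ a b c) :
    Oct.bil (act (Y ⟨W, hW⟩) x) (act (Y ⟨W, hW⟩) y) = Oct.bil x y := by
  have h1 : Continuous fun Y : S → Matrix (Fin 8) (Fin 8) ℂ =>
      Oct.bil (act (Y ⟨W, hW⟩) x) (act (Y ⟨W, hW⟩) y) := CO.bil (co_act hW x) (co_act hW y)
  have h2 : ∀ z ∈ R, Oct.bil (act (mat S (z * g : OctL E a b c ≃ₗ[E] OctL E a b c) ⟨W, hW⟩) x)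
      (act (mat S (z * g : OctL E a b c ≃ₗ[E] OctL E a b c) ⟨W, hW⟩) y) = Oct.bil x y :=
    fun z hz => matW_bil (W := W) (g := ((z * g : OctL E a b c ≃ₗ[E] OctL E a b c) :
      OctL E a b c →ₗ[E] OctL E a b c)) (hR z hz) x y
  obtain ⟨t, ht⟩ : ∃ t, t = Oct.bil x y := ⟨_, rfl⟩
  obtain ⟨f, hf⟩ : ∃ f : (S → Matrix (Fin 8) (Fin 8) ℂ) → ℂ, f = fun Y =>
    Oct.bil (act (Y ⟨W, hW⟩) x) (act (Y ⟨W, hW⟩) y) := ⟨_, rfl⟩
  have h3 : IsClosed {Y | f Y = t} := isClosed_eq (hf ▸ h1) continuous_const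
  have h4 : ∀ z ∈ R, f (mat S (z * g : OctL E a b c ≃ₗ[E] OctL E a b c)) = t := by
    rw [hf, ht]
    exact h2
  have h5 : f Y = t := clg_induction h3 h4 hY
  rw [hf, ht] at h5
  exact h5

theorem clg_J_of (hW : (W : E →+* ℂ) ∈ S) (hσ : ∀ x, W (σ x) = conj (W x))
    (hR : ∀ z ∈ R, ∀ x, (z * g) (Jm ρ σ α q x) = Jm ρ σ α q ((z * g) x))
    (hY : Y ∈ clg S R g) (x : OctL ℂ a b c) :
    act (Y ⟨W, hW⟩) (JW W ρ α q x) = JW W ρ α q (act (Y ⟨W, hW⟩) x) := by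
  refine clg_induction (P := fun Y => act (Y ⟨W, hW⟩) (JW W ρ α q x) =
    JW W ρ α q (act (Y ⟨W, hW⟩) x)) ?_ (fun z hz => ?_) hY
  · exact CO.isClosed (co_act hW _) (CO.JW (co_act hW x))
  · exact matW_J (W := W) hσ (g := ((z * g : OctL E a b c ≃ₗ[E] OctL E a b c) :
      OctL E a b c →ₗ[E] OctL E a b c)) (hR z hz) x

theorem clg_tri_of (hW : (W : E →+* ℂ) ∈ S) (hW' : (W' : E →+* ℂ) ∈ S)
    (hW'' : (W'' : E →+* ℂ) ∈ S) (h' : W' = cmp W ρ) (h'' : W'' = cmp W' ρ)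
    (hR : ∀ z ∈ R, ∀ x y, (z * g) (tri ρ x y) = tri ρ ((z * g) x) ((z * g) y))
    (hY : Y ∈ clg S R g) (x y : OctL ℂ a b c) :
    act (Y ⟨W, hW⟩) (star x * star y) =
      star (act (Y ⟨W', hW'⟩) x) * star (act (Y ⟨W'', hW''⟩) y) := by
  refine clg_induction (P := fun Y => act (Y ⟨W, hW⟩) (star x * star y) =
      star (act (Y ⟨W', hW'⟩) x) * star (act (Y ⟨W'', hW''⟩) y)) ?_ (fun z hz => ?_) hY
  · exact CO.isClosed (co_act hW _) (CO.mul (CO.star (co_act hW' x)) (CO.star (co_act hW'' y)))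
  · exact matW_tri h' h'' (g := ((z * g : OctL E a b c ≃ₗ[E] OctL E a b c) :
      OctL E a b c →ₗ[E] OctL E a b c)) (hR z hz) x y

end relations

section spec

variable {k L E : Type} [Field k] [NumberField k] [Field L] [NumberField L] [Field E]
  [NumberField E] [Algebra k L] [Algebra k E] [Algebra L E]
  [IsScalarTower k L E] [NeZero (2 : E)] {ρ σ : E ≃ₐ[k] E} {ρL : L ≃ₐ[k] L} {α : E}
  {a b c : kˣ} {q : Lˣ} (H : Hy ρ σ ρL α a b c q)
include H

theorem GT_bil {g : OctL E a b c ≃ₗ[E] OctL E a b c} (hg : g ∈ GT ρ σ α a b c q)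
    (x y : OctL E a b c) : Oct.bil (g x) (g y) = Oct.bil x y := by
  have h1 : IsKap ρ g (1 : Lˣ) := by
    intro x y
    rw [hg.1]
    simp
  have h2 := bil_kap H.ρ3 h1 x y
  simpa using h2

/-- T2: isometry. -/
theorem clg_bil [Algebra k ℂ] (W : E →ₐ[k] ℂ) (hW : (W : E →+* ℂ) ∈ Bd ρ σ q)
    {g : OctL E a b c ≃ₗ[E] OctL E a b c} (hg : g ∈ GT ρ σ α a b c q)
    {Y : Bd ρ σ q → Matrix (Fin 8) (Fin 8) ℂ}
    (hY : Y ∈ clg (Bd ρ σ q) (Rs ρ σ α a b c q) g) (x y : OctL ℂ a b c) :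
    bil (act (Y ⟨W, hW⟩) x) (act (Y ⟨W, hW⟩) y) = bil x y :=
  clg_bil_of hW (fun _ hz => GT_bil H ((GT ρ σ α a b c q).mul_mem (Rs_le hz) hg)) hY x y

omit H

/-- T2: `J`. -/
theorem clg_J [Algebra k ℂ] (W : E →ₐ[k] ℂ) (hW : (W : E →+* ℂ) ∈ Bd ρ σ q)
    {g : OctL E a b c ≃ₗ[E] OctL E a b c} (hg : g ∈ GT ρ σ α a b c q)
    {Y : Bd ρ σ q → Matrix (Fin 8) (Fin 8) ℂ}
    (hY : Y ∈ clg (Bd ρ σ q) (Rs ρ σ α a b c q) g) (x : OctL ℂ a b c) :
    act (Y ⟨W, hW⟩) (JW W ρ α q x) = JW W ρ α q (act (Y ⟨W, hW⟩) x) :=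
  clg_J_of hW hW.1 (fun _ hz => ((GT ρ σ α a b c q).mul_mem (Rs_le hz) hg).2) hY x

/-- T2: triality. -/
theorem clg_tri [Algebra k ℂ] (W W' W'' : E →ₐ[k] ℂ) (hW : (W : E →+* ℂ) ∈ Bd ρ σ q)
    (hW' : (W' : E →+* ℂ) ∈ Bd ρ σ q) (hW'' : (W'' : E →+* ℂ) ∈ Bd ρ σ q)
    (h' : W' = cmp W ρ) (h'' : W'' = cmp W' ρ)
    {g : OctL E a b c ≃ₗ[E] OctL E a b c} (hg : g ∈ GT ρ σ α a b c q)
    {Y : Bd ρ σ q → Matrix (Fin 8) (Fin 8) ℂ}
    (hY : Y ∈ clg (Bd ρ σ q) (Rs ρ σ α a b c q) g) (x y : OctL ℂ a b c) :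
    act (Y ⟨W, hW⟩) (star x * star y) =
      star (act (Y ⟨W', hW'⟩) x) * star (act (Y ⟨W'', hW''⟩) y) :=
  clg_tri_of hW hW' hW'' h' h''
    (fun _ hz => ((GT ρ σ α a b c q).mul_mem (Rs_le hz) hg).1) hY x y

include H

/-- T2: the end. -/
theorem mem_of_one (hX : ∀ w : L →+* ℝ, w (algebraMap k L a) < 0 →
      w (algebraMap k L b) < 0 ∧ w (algebraMap k L c) < 0)
    {g : OctL E a b c ≃ₗ[E] OctL E a b c} (hg : g ∈ GT ρ σ α a b c q)
    (h1 : (1 : Bd ρ σ q → Matrix (Fin 8) (Fin 8) ℂ) ∈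
      clg (Bd ρ σ q) (Rs ρ σ α a b c q) g) : g ∈ Rs ρ σ α a b c q :=
  mem_of_one_of (Bd_finite H) Rs_le (open_top H hX) hg h1

end spec

end Vale.Agent.P011.D4Z
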