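import Vale.Agent.P011.D4Z.Defs
import Vale.Agent.P011.D4X.H659.Hh

/-!
Block D4Z: base change along an embedding; the relations of the matrices of the elements of the
group.
-/

open Topology

set_option linter.unusedSectionVars false

namespace Vale.Agent.P011.D4Z

open Vale.Agent.P011.MPQ Vale.Agent.P011.D4 Vale.Agent.P011.D4.Oct Vale.Agent.P011.D4X
open scoped ComplexConjugate

section gen

variable {F : Type} [Field F] {a b c : Fˣ}

theorem co8_inj {x y : Oct a b c} (h : co8 x = co8 y) : x = y := by
  rw [← of8_co8 x, h, of8_co8]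

theorem sum_e (x : Oct a b c) : x = ∑ j, co8 x j • (of8 (Pi.single j 1) : Oct a b c) := by
  apply co8_inj
  have h1 : ∀ s : Finset (Fin 8), co8 (∑ j ∈ s, co8 x j • (of8 (Pi.single j 1) : Oct a b c)) =
      ∑ j ∈ s, co8 x j • (Pi.single j 1 : Fin 8 → F) := by
    intro s
    induction s using Finset.induction_on with
    | empty =>
      rw [Finset.sum_empty, Finset.sum_empty]
      funext i
      fin_cases i <;> rfl
    | insert j s hj ih =>
      rw [Finset.sum_insert hj, Finset.sum_insert hj, co8_add, ih, co8_smul, co8_of8]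
  rw [h1]
  funext i
  rw [Finset.sum_apply]
  simp [Pi.single_apply]

end gen

section ev

variable {k E : Type} [Field k] [Field E] [Algebra k E] {a b c : kˣ} [Algebra k ℂ]
  {W : E →ₐ[k] ℂ}

theorem co8_ev (x : OctL E a b c) (i : Fin 8) : co8 (ev W x) i = W (co8 x i) := by
  unfold ev
  rw [co8_of8]

theorem ev_add (x y : OctL E a b c) : ev W (x + y) = ev W x + ev W y := by
  apply co8_inj
  funext i
  rw [co8_add, Pi.add_apply, co8_ev, co8_ev, co8_ev, co8_add, Pi.add_apply, map_add]

theorem ev_smul (t : E) (x : OctL E a b c) : ev W (t • x) = W t • ev W x := by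
  apply co8_inj
  funext i
  rw [co8_smul, Pi.smul_apply, co8_ev, co8_ev, co8_smul, Pi.smul_apply, smul_eq_mul,
    smul_eq_mul, map_mul]

theorem ev_sub (x y : OctL E a b c) : ev W (x - y) = ev W x - ev W y := by
  have h := ev_add (W := W) (x - y) y
  rw [sub_add_cancel] at h
  rw [h, add_sub_cancel_right]

/-- Base change of a quaternion. -/
noncomputable def evq (W : E →ₐ[k] ℂ) (x : Qt (up E a) (up E b)) : Qt (up ℂ a) (up ℂ b) :=
  ⟨W x.re, W x.imI, W x.imJ, W x.imK⟩

theorem ev_eq (x : OctL E a b c) : ev W x = ⟨evq W x.fst, evq W x.snd⟩ := rfl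

theorem W_up (t : kˣ) : W ((up E t : Eˣ) : E) = ((up ℂ t : ℂˣ) : ℂ) := W.commutes (t : k)

theorem evq_mul (x y : Qt (up E a) (up E b)) : evq W (x * y) = evq W x * evq W y := by
  have ha : W ((up E a : Eˣ) : E) = ((up ℂ a : ℂˣ) : ℂ) := W_up a
  have hb : W ((up E b : Eˣ) : E) = ((up ℂ b : ℂˣ) : ℂ) := W_up b
  ext
  · change W (x * y).re = (evq W x * evq W y).re
    rw [QuaternionAlgebra.re_mul, QuaternionAlgebra.re_mul]
    simp only [map_add, map_sub, map_mul, ha, hb, map_zero, evq]
  · change W (x * y).imI = (evq W x * evq W y).imI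
    rw [QuaternionAlgebra.imI_mul, QuaternionAlgebra.imI_mul]
    simp only [map_add, map_sub, map_mul, ha, hb, map_zero, evq]
  · change W (x * y).imJ = (evq W x * evq W y).imJ
    rw [QuaternionAlgebra.imJ_mul, QuaternionAlgebra.imJ_mul]
    simp only [map_add, map_sub, map_mul, ha, hb, map_zero, evq]
  · change W (x * y).imK = (evq W x * evq W y).imK
    rw [QuaternionAlgebra.imK_mul, QuaternionAlgebra.imK_mul]
    simp only [map_add, map_sub, map_mul, ha, hb, map_zero, evq]

theorem evq_star (x : Qt (up E a) (up E b)) : evq W (star x) = star (evq W x) := by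
  ext
  · change W (star x).re = (star (evq W x)).re
    rw [QuaternionAlgebra.re_star, QuaternionAlgebra.re_star]
    simp only [zero_mul, add_zero, evq]
  · change W (star x).imI = (star (evq W x)).imI
    rw [QuaternionAlgebra.imI_star, QuaternionAlgebra.imI_star, map_neg]
    rfl
  · change W (star x).imJ = (star (evq W x)).imJ
    rw [QuaternionAlgebra.imJ_star, QuaternionAlgebra.imJ_star, map_neg]
    rfl
  · change W (star x).imK = (star (evq W x)).imK
    rw [QuaternionAlgebra.imK_star, QuaternionAlgebra.imK_star, map_neg]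
    rfl

theorem evq_add (x y : Qt (up E a) (up E b)) : evq W (x + y) = evq W x + evq W y := by
  ext
  · exact map_add W _ _
  · exact map_add W _ _
  · exact map_add W _ _
  · exact map_add W _ _

theorem evq_neg (x : Qt (up E a) (up E b)) : evq W (-x) = -evq W x := by
  ext
  · exact map_neg W _
  · exact map_neg W _
  · exact map_neg W _
  · exact map_neg W _

theorem evq_smul (t : E) (x : Qt (up E a) (up E b)) : evq W (t • x) = W t • evq W x := by
  ext
  · exact map_mul W _ _
  · exact map_mul W _ _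
  · exact map_mul W _ _
  · exact map_mul W _ _

theorem ev_star (x : OctL E a b c) : ev W (star x) = star (ev W x) := by
  rw [ev_eq, ev_eq, fst_star, snd_star, evq_star]
  apply Oct.ext
  · rfl
  · exact evq_neg _

theorem ev_mul (x y : OctL E a b c) : ev W (x * y) = ev W x * ev W y := by
  have hc : W ((up E c : Eˣ) : E) = ((up ℂ c : ℂˣ) : ℂ) := W_up c
  rw [ev_eq, ev_eq, ev_eq, fst_mul, snd_mul, evq_add, evq_add, evq_smul, evq_mul, evq_mul, evq_mul,
    evq_mul, evq_star, evq_star, hc]
  rfl

theorem norm_ev (x : OctL E a b c) : Oct.norm (ev W x) = W (Oct.norm x) := by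
  have ha : W (algebraMap k E a) = algebraMap k ℂ a := W.commutes _
  have hb : W (algebraMap k E b) = algebraMap k ℂ b := W.commutes _
  have hc : W (algebraMap k E c) = algebraMap k ℂ c := W.commutes _
  rw [ev_eq]
  simp [Oct.norm, nrd, evq, ha, hb, hc]

theorem bil_ev (x y : OctL E a b c) : Oct.bil (ev W x) (ev W y) = W (Oct.bil x y) := by
  rw [Oct.bil, Oct.bil, ← ev_add, norm_ev, norm_ev, norm_ev, map_sub, map_sub]

theorem ev_single (j : Fin 8) : ev W (of8 (Pi.single j 1) : OctL E a b c) =
    of8 (Pi.single j 1) := by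
  apply co8_inj
  funext i
  rw [co8_ev, co8_of8, co8_of8]
  by_cases h : i = j
  · subst h
    rw [Pi.single_eq_same, Pi.single_eq_same, map_one]
  · rw [Pi.single_eq_of_ne h, Pi.single_eq_of_ne h, map_zero]

/-- A property which holds for the values of the octonions over `E` and is stable under sums and
multiples holds for all octonions. -/
theorem ev_induction {P : OctL ℂ a b c → Prop} (h0 : ∀ x : OctL E a b c, P (ev W x))
    (ha : ∀ x y, P x → P y → P (x + y)) (hs : ∀ (t : ℂ) (x), P x → P (t • x))
    (x : OctL ℂ a b c) : P x := by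
  rw [sum_e x]
  have h1 : ∀ s : Finset (Fin 8), P (∑ j ∈ s, co8 x j • (of8 (Pi.single j 1) : OctL ℂ a b c)) := by
    intro s
    induction s using Finset.induction_on with
    | empty =>
      rw [Finset.sum_empty]
      have h2 := hs 0 _ (h0 0)
      rwa [zero_smul] at h2
    | insert j s hj ih =>
      rw [Finset.sum_insert hj]
      refine ha _ _ (hs _ _ ?_) ih
      rw [← ev_single (W := W)]
      exact h0 _
  exact h1 _

theorem act_matW (g : OctL E a b c →ₗ[E] OctL E a b c) (x : OctL E a b c) :
    act (matW (W : E →+* ℂ) g) (ev W x) = ev W (g x) := by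
  apply co8_inj
  funext i
  rw [act_apply, co8_of8, co8_ev]
  have h1 : co8 (g x) i = ∑ j, co8 x j * co8 (g (of8 (Pi.single j 1))) i := by
    have h2 : co8 (g x) i = co8 (g (∑ j, co8 x j • (of8 (Pi.single j 1) : OctL E a b c))) i := by
      rw [← sum_e x]
    rw [h2, map_sum]
    have h3 : ∀ s : Finset (Fin 8),
        co8 (∑ j ∈ s, g (co8 x j • (of8 (Pi.single j 1) : OctL E a b c))) i =
          ∑ j ∈ s, co8 x j * co8 (g (of8 (Pi.single j 1))) i := by
      intro s
      induction s using Finset.induction_on with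
      | empty =>
        rw [Finset.sum_empty, Finset.sum_empty]
        fin_cases i <;> rfl
      | insert j s hj ih =>
        rw [Finset.sum_insert hj, Finset.sum_insert hj, co8_add, Pi.add_apply, ih, map_smul,
          co8_smul, Pi.smul_apply, smul_eq_mul]
    exact h3 _
  rw [h1, map_sum]
  unfold Matrix.mulVec dotProduct
  refine Finset.sum_congr rfl fun j _ => ?_
  rw [co8_ev, map_mul, mul_comm]
  rfl

end ev

section rel

variable {k L E : Type} [Field k] [Field L] [Field E] [Algebra k L] [Algebra k E] [Algebra L E]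
  [IsScalarTower k L E] {ρ σ : E ≃ₐ[k] E} {α : E} {a b c : kˣ} {q : Lˣ} [Algebra k ℂ]
  {W W' W'' : E →ₐ[k] ℂ}

theorem ev_omap (x : OctL E a b c) : ev W (omap ρ x) = ev (cmp W ρ) x := rfl

theorem ev_tri (h' : W' = cmp W ρ) (h'' : W'' = cmp W' ρ) (x y : OctL E a b c) :
    ev W (tri ρ x y) = star (ev W' x) * star (ev W'' y) := by
  subst h'' h'
  rw [tri, ev_mul, ev_omap, ev_omap, ev_omap, ev_star, ev_star]

theorem cj_ev (hσ : ∀ x, W (σ x) = conj (W x)) (x : OctL E a b c) :
    cj (ev W x) = ev W (omap σ x) := by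
  apply co8_inj
  funext i
  unfold cj
  rw [co8_of8, co8_ev, ← hσ, co8_ev]
  congr 1
  fin_cases i <;> rfl

theorem evq_mq (t : E) : evq W (mq a b α t) = mq a b (W α) (W t) := by
  unfold evq mq
  ext <;> simp [map_ofNat]

theorem ev_Jm (hσ : ∀ x, W (σ x) = conj (W x)) (x : OctL E a b c) :
    ev W (Jm ρ σ α q x) = JW W ρ α q (ev W x) := by
  unfold JW
  rw [cj_ev hσ]
  rw [ev_eq, ev_eq]
  apply Oct.ext
  · change evq W (mq a b α (algebraMap L E q) * qmap σ x.fst *
      mq a b α (algebraMap L E q * ρ (algebraMap L E q))) = _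
    rw [evq_mul, evq_mul, evq_mq, evq_mq, map_mul]
    rfl
  · change evq W (qmap σ x.snd * (mq a b α (algebraMap L E q) *
      star (mq a b α (algebraMap L E q * ρ (algebraMap L E q))))) = _
    rw [evq_mul, evq_mul, evq_star, evq_mq, evq_mq, map_mul]
    rfl

theorem co8_cj (x : OctL ℂ a b c) (i : Fin 8) : co8 (cj x) i = conj (co8 x i) := by
  unfold cj
  rw [co8_of8]

theorem cj_add (x y : OctL ℂ a b c) : cj (x + y) = cj x + cj y := by
  apply co8_inj
  funext i
  rw [co8_cj, co8_add, co8_add, Pi.add_apply, Pi.add_apply, co8_cj, co8_cj, map_add]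

theorem cj_smul (t : ℂ) (x : OctL ℂ a b c) : cj (t • x) = conj t • cj x := by
  apply co8_inj
  funext i
  rw [co8_cj, co8_smul, co8_smul, Pi.smul_apply, Pi.smul_apply, co8_cj, smul_eq_mul,
    smul_eq_mul, map_mul]

theorem JW_add (x y : OctL ℂ a b c) : JW W ρ α q (x + y) = JW W ρ α q x + JW W ρ α q y := by
  unfold JW
  rw [cj_add]
  apply Oct.ext
  · simp only [fst_add, mul_add, add_mul]
  · simp only [snd_add, add_mul]

theorem JW_smul (t : ℂ) (x : OctL ℂ a b c) :
    JW W ρ α q (t • x) = conj t • JW W ρ α q x := by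
  unfold JW
  rw [cj_smul]
  apply Oct.ext
  · simp only [fst_smul, mul_smul_comm, smul_mul_assoc]
  · simp only [snd_smul, smul_mul_assoc]

/-- The matrices of an isometry. -/
theorem matW_bil {g : OctL E a b c →ₗ[E] OctL E a b c}
    (hg : ∀ x y, Oct.bil (g x) (g y) = Oct.bil x y) (x y : OctL ℂ a b c) :
    Oct.bil (act (matW (W : E →+* ℂ) g) x) (act (matW (W : E →+* ℂ) g) y) = Oct.bil x y := by
  refine ev_induction (W := W) (P := fun x => Oct.bil (act (matW (W : E →+* ℂ) g) x)
    (act (matW (W : E →+* ℂ) g) y) = Oct.bil x y) (fun x => ?_) (fun x x' h h' => ?_)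
    (fun t x h => ?_) x
  · refine ev_induction (W := W) (P := fun y => Oct.bil (act (matW (W : E →+* ℂ) g) (ev W x))
      (act (matW (W : E →+* ℂ) g) y) = Oct.bil (ev W x) y) (fun y => ?_) (fun y y' h h' => ?_)
      (fun t y h => ?_) y
    · rw [act_matW, act_matW, bil_ev, bil_ev, hg]
    · rw [map_add, bil_add_right, bil_add_right, h, h']
    · rw [map_smul, bil_smul_right, bil_smul_right, h]
  · rw [map_add, bil_add_left, bil_add_left, h, h']
  · rw [map_smul, bil_smul_left, bil_smul_left, h]

/-- The matrices of a map which commutes with `J`. -/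
theorem matW_J (hσ : ∀ x, W (σ x) = conj (W x)) {g : OctL E a b c →ₗ[E] OctL E a b c}
    (hg : ∀ x, g (Jm ρ σ α q x) = Jm ρ σ α q (g x)) (x : OctL ℂ a b c) :
    act (matW (W : E →+* ℂ) g) (JW W ρ α q x) = JW W ρ α q (act (matW (W : E →+* ℂ) g) x) := by
  refine ev_induction (W := W) (P := fun x => act (matW (W : E →+* ℂ) g) (JW W ρ α q x) =
    JW W ρ α q (act (matW (W : E →+* ℂ) g) x)) (fun x => ?_) (fun x x' h h' => ?_)
    (fun t x h => ?_) x
  · rw [← ev_Jm hσ, act_matW, act_matW, hg, ev_Jm hσ]
  · rw [map_add, JW_add, JW_add, map_add, h, h']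
  · rw [map_smul, JW_smul, JW_smul, map_smul, h]

/-- The matrices of a map which commutes with the product. -/
theorem matW_tri (h' : W' = cmp W ρ) (h'' : W'' = cmp W' ρ)
    {g : OctL E a b c →ₗ[E] OctL E a b c} (hg : ∀ x y, g (tri ρ x y) = tri ρ (g x) (g y))
    (x y : OctL ℂ a b c) : act (matW (W : E →+* ℂ) g) (star x * star y) =
      star (act (matW (W' : E →+* ℂ) g) x) * star (act (matW (W'' : E →+* ℂ) g) y) := by
  refine ev_induction (W := W') (P := fun x => act (matW (W : E →+* ℂ) g) (star x * star y) =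
      star (act (matW (W' : E →+* ℂ) g) x) * star (act (matW (W'' : E →+* ℂ) g) y))
    (fun x => ?_) (fun x x' h h' => ?_) (fun t x h => ?_) x
  · refine ev_induction (W := W'') (P := fun y => act (matW (W : E →+* ℂ) g)
      (star (ev W' x) * star y) =
      star (act (matW (W' : E →+* ℂ) g) (ev W' x)) * star (act (matW (W'' : E →+* ℂ) g) y))
      (fun y => ?_) (fun y y' h h' => ?_) (fun t y h => ?_) y
    · rw [← ev_tri h' h'', act_matW, act_matW, act_matW, hg, ev_tri h' h'']
    · rw [star_add, mul_add, map_add, map_add, star_add, mul_add, h, h']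
    · rw [star_smul_oct, mul_smul_oct, map_smul, map_smul, star_smul_oct, mul_smul_oct, h]
  · rw [star_add, add_mul, map_add, map_add, star_add, add_mul, h, h']
  · rw [star_smul_oct, smul_mul_oct, map_smul, map_smul, star_smul_oct, smul_mul_oct, h]

end rel

end Vale.Agent.P011.D4Z
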