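import Vale.Agent.P011.D4Z.H493.Clg
import Vale.Agent.P011.D4Z.H862.Orb

/-!
Block D4Z: the density argument from the one place statement.
-/

open Topology NumberField

namespace Vale.Agent.P011.D4Z.H493

open Vale.Agent.P011.MPQ Vale.Agent.P011.D4 Vale.Agent.P011.D4.Oct Vale.Agent.P011.D4X
open Vale.Agent.P011.E6
open scoped ComplexConjugate

variable {k L E : Type} [Field k] [NumberField k] [Field L] [NumberField L] [Field E]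
  [NumberField E] [Algebra k L] [Algebra k E] [Algebra L E]
  [IsScalarTower k L E] [NeZero (2 : E)] {ρ σ : E ≃ₐ[k] E} {ρL : L ≃ₐ[k] L} {α : E}
  {a b c : kˣ} {q : Lˣ} (H : Hy ρ σ ρL α a b c q)
include H

theorem gt_top_of (hX : ∀ w : L →+* ℝ, w (algebraMap k L a) < 0 →
      w (algebraMap k L b) < 0 ∧ w (algebraMap k L c) < 0)
    (hone : ∀ g ∈ GT ρ σ α a b c q, ∀ (_ : Algebra k ℂ) (W : E →ₐ[k] ℂ)
      (hW : (W : E →+* ℂ) ∈ Bd ρ σ q) (hW' : (cmp W ρ : E →+* ℂ) ∈ Bd ρ σ q)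
      (hW'' : (cmp (cmp W ρ) ρ : E →+* ℂ) ∈ Bd ρ σ q),
      (W (algebraMap L E q)).re < 0 → 0 < (W (ρ (algebraMap L E q))).re →
      ∀ Y ∈ clg (Bd ρ σ q) (Rs ρ σ α a b c q) g,
        ∃ Y' ∈ clg (Bd ρ σ q) (Rs ρ σ α a b c q) g, Y' ⟨W, hW⟩ = 1 ∧ Y' ⟨cmp W ρ, hW'⟩ = 1 ∧
          Y' ⟨cmp (cmp W ρ) ρ, hW''⟩ = 1 ∧
          ∀ V : Bd ρ σ q, V.1.comp (algebraMap k E) ≠ algebraMap k ℂ → Y' V = Y V) :
    GT ρ σ α a b c q ≤ Rs ρ σ α a b c q := fun g hg =>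
  mem_of_one H hX hg (H862.outer H (hone g hg) self_mem_clg)

end Vale.Agent.P011.D4Z.H493
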